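import Vale.Agent.P281.H383.TG.HasUL
import Vale.Agent.P281.H383.ULF.Core

/-!
# P281, project T-G (helper383): block G10 for T-UL, `HasFam`
-/

open Set Filter Metric Vale.Agent.P281 Vale.Agent.P281.H713
open Vale.Agent.P272.K (Chart IsKahler IsHermitian Cm)
open Vale.Agent.P281.MF Vale.Agent.P281.ISO
open Vale.Agent.P281.H713.TZ
open Vale.Agent.P281.H64.Gen (IsSmallSet NoExc CritStmt ComplStmt)
open Vale.Agent.P281.H64.Thin (IsThinSet)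
open Vale.Agent.P281.H64.TU (Tame KTame RelFormT HasFormsT)
open scoped Topology ContDiff Manifold

set_option linter.all false

noncomputable section

namespace Vale.Agent.P281.H383.TG

open Vale.Agent.P281.H511.UL
open Vale.Agent.P281.H969.TL (IsUnitAt IsUnitOn IsUnitF fibIn_fin two_seq BoundStmt FamUStmt)
open Vale.Agent.P281.H969.TG (HasFormsD HasFam)
open Vale.Agent.P281.H383.ULF (kTame_mono)

theorem hasFormsD_mono {E E' E₀ : Type} [NormedAddCommGroup E] [NormedSpace ℂ E]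
    [FiniteDimensional ℂ E] [NormedAddCommGroup E'] [NormedSpace ℂ E'] [FiniteDimensional ℂ E']
    [NormedAddCommGroup E₀] [NormedSpace ℂ E₀] [FiniteDimensional ℂ E₀]
    {X Y : Type} [TopologicalSpace X] [ChartedSpace E X] [IsManifold 𝓘(ℂ, E) ω X]
    [TopologicalSpace Y] [ChartedSpace E' Y] [IsManifold 𝓘(ℂ, E') ω Y] {T : Tame E₀ X}
    {f : X → Y} {S S' : Set Y} (hSS : S ⊆ S') {e₀ : E ≃L[ℂ] (E' × E₀)} {Δ : Set X → ℝ} {r : ℕ}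
    {y : Y} (h : HasFormsD T f S e₀ Δ r y) : HasFormsD T f S' e₀ Δ r y := by
  obtain ⟨N, 𝒜, κ₀, Θ, Ξ, h1, h2, h4, h5, h6⟩ := h
  exact ⟨N, 𝒜, κ₀, Θ, Ξ, h1, h2, H969.TL.relForm_mono hSS h4,
    fun b => H969.TL.relForm_mono hSS (h5 b), h6⟩

/-- **MX** with poles in `𝒟` -/
def MixDStmt : Prop :=
  ∀ (p d n g q r : ℕ) (X Y : Type) [TopologicalSpace X] [T2Space X] [ChartedSpace (Cm (p + d)) X]
    [IsManifold 𝓘(ℂ, Cm (p + d)) ω X] [TopologicalSpace Y] [T2Space Y] [ChartedSpace (Cm p) Y]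
    [IsManifold 𝓘(ℂ, Cm p) ω Y] (T : Tame (Cm d) X) (f : X → Y) (S : Set Y)
    (Q : (Fin n → ℝ) → (Fin n → ℝ) → ℝ) (ι : Type) (U : ι → Set Y)
    (π : ι → Y → ((Fin n → ℝ) ≃L[ℝ] EuclideanSpace ℂ (Fin g)))
    (L : ι → X → (X → EuclideanSpace ℂ (Fin g)) → Prop)
    (𝒟 : Finset (Set X)) (a : Fin q → Set X → ℤ)
    (e₀ : Cm (p + d) ≃L[ℂ] (Cm p × Cm d)) (Δ : Set X → ℝ), 0 < d → TameMono T →
    ContMDiff 𝓘(ℂ, Cm (p + d)) 𝓘(ℂ, Cm p) ω f → IsClosed S →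
    H64.IsProperFibration (n := p + d) (p := p) f S →
    IsAlb0 (Cm (p + d)) (Cm p) d T f S Q U π L →
    (∀ D ∈ 𝒟, J.IsPrime (Cm (p + d)) D) → (∀ D ∈ 𝒟, ∀ y ∉ S, ¬ f ⁻¹' {y} ⊆ D) →
    (∀ D, 0 ≤ Δ D) → (∀ D ∈ 𝒟, Δ D = 1) →
    (∀ j, ∀ y₀ ∉ S, ∃ (W : Set Y) (u : X → ℂ), IsOpen W ∧ y₀ ∈ W ∧
      IsUnitOn (Cm (p + d)) f 𝒟 (a j) W u) →
    (∀ j, ∀ ρ K : ℝ, 0 < ρ → 0 < K → ∃ B : ℝ, ∀ (y : Y) (u : X → ℂ), y ∉ S →
      IsUnitAt (Cm (p + d)) f 𝒟 (a j) y u → ∀ (s : Cm d → X) (v₀ : Cm d),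
      IsPolydisc (Cm (p + d)) f s v₀ ρ → T K s v₀ ρ → f (s v₀) = y →
      (∀ v ∈ ball v₀ ρ, ∀ D ∈ 𝒟, s v ∉ D) →
      ‖fderiv ℂ (fun v => u (s v)) v₀‖ ≤ B * ‖u (s v₀)‖) →
    ∀ y ∉ S, XRank (Cm (p + d)) d f U L 𝒟 a r y → HasFormsD T f S e₀ Δ r y

open Vale.Agent.P281.H68.UL in
theorem mixD_of (hrank : MixRankStmt) (hUL : HasULDStmt) : MixDStmt := by
  intro p d n g q r X Y _ _ _ _ _ _ _ _ T f S Q ι U π L 𝒟 a e₀ Δ hd hT hf hS hfib hA hP hnot hΔ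
    hΔ1 hU hB y hy hR
  obtain ⟨W, u, hu⟩ := exists_isUF hS hU
  obtain ⟨q', σ, hR'⟩ := hrank p d n q r X Y (EuclideanSpace ℂ (Fin g)) T f S Q ι
    {y : Y // y ∉ S} U π L 𝒟 a W u hd hf hS hfib hA hP hnot hu y hy hR
  obtain ⟨Q', ext, extG, e1, e2, e3, e4, e5⟩ := extStmt n q' (EuclideanSpace ℂ (Fin g)) Q
  have h1 := mixFam p d n q' X Y (EuclideanSpace ℂ (Fin g)) T f S Q ι {y : Y // y ∉ S} U π L 𝒟
    (fun j => a (σ j)) W (fun k j => u k (σ j)) Q' ext extG hd hT hf hS hfib hA hP hnot (hu.sub σ)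
    (fun j => hB (σ j)) e1 e2 e3 e4 e5
  exact hUL d r (n + 2 * q') (Cm (p + d)) (Cm p) X Y (Vx (EuclideanSpace ℂ (Fin g)) q') T f S Q'
    (ι × {y : Y // y ∉ S}) (UX U W) (fun a y => ext (π a.1 y)) 𝒟
    (LX (Cm (p + d)) f 𝒟 W L fun k j => u k (σ j)) e₀ Δ hd hf hS h1 hP hΔ hΔ1 y hy hR'

/-- **G10 for T-UL** (mixed Gauss maps; with `𝒟 = ∅`, `q = 0`: T-U) -/
theorem hasFam_ul (crit : CritStmt) (compl : ComplStmt) (fi : H64.TD.FibInStmt)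
    (famU : FamUStmt) (bound : BoundStmt) (a0 : Alb0Stmt) (mix : MixDStmt) (xo : XOpenStmt)
    (fx1 : UnitNormStmt) (fx2 : FibXStmt) {p d q m r : ℕ} {X Y : Type} [TopologicalSpace X]
    [ChartedSpace (Cm (p + d)) X] [IsManifold 𝓘(ℂ, Cm (p + d)) ω X] [TopologicalSpace Y]
    [ChartedSpace (Cm p) Y] [IsManifold 𝓘(ℂ, Cm p) ω Y] {f : X → Y}
    {Δ : Set X → ℝ} {a : Fin q → Set X → ℤ} (hd : 0 < d)
    (h : H511.Surf.IsFibration (Cm (p + d)) (Cm p) f Δ)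
    {w : Chart (p + d) X → Cm (p + d) → Matrix (Fin (p + d)) (Fin (p + d)) ℂ} (hw : IsKahler w)
    {𝒟 : Finset (Set X)} (h𝒟Δ : ∀ D ∈ 𝒟, Δ D = 1) {H₀ : ℕ → Set Y}
    (hH₀ : ∀ k, IsThinSet (Cm p) (H₀ k)) (hgr : ∀ y, (∀ k, y ∉ H₀ k) →
      ∃ (F : Type) (_ : TopologicalSpace F) (_ : T2Space F) (_ : ChartedSpace (Cm d) F)
        (i : F → X), H511.Surf.IsFibre (Cm (p + d)) (Cm d) f y i ∧
        (∀ x, (i ⁻¹' {x}).encard ≤ m) ∧ XGaussRank (p + d) d i 𝒟 a r) :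
    HasFam p d r f Δ := by
  classical
  have : T2Space X := h.hausdorff.1
  have : T2Space Y := h.hausdorff.2
  have : CompactSpace X := h.compact
  have : ConnectedSpace X := h.connected
  have hsurj : Function.Surjective f := fun y => (h.fibres y).nonempty
  have : PreconnectedSpace Y := by
    rw [preconnectedSpace_iff_univ, ← hsurj.range_eq]
    exact isPreconnected_range h.hol.continuous
  have : Nonempty Y := by
    obtain ⟨x⟩ : Nonempty X := inferInstance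
    exact ⟨f x⟩
  have hprime : ∀ D ∈ 𝒟, J.IsPrime (Cm (p + d)) D := fun D hD =>
    h.snc.2.1 D (by rw [h𝒟Δ D hD]; exact one_ne_zero)
  have hΔ0 : ∀ D, 0 ≤ Δ D := fun D => by
    obtain ⟨c, h1, h2, -⟩ := h.snc.2.2.1 D
    rw [h1]
    exact_mod_cast h2
  obtain ⟨S₁, hS₁, hP⟩ := crit (p + d) p X Y f h.hol h.fibres
  obtain ⟨S₂, h12, hS₂, hne⟩ := fibIn_fin fi hd h.hol hP hS₁ 𝒟 hprime
  have hP₂ := hP S₂ h12 hS₂.1
  have hpre := (compl p Y S₂ hS₂).2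
  have hnon : S₂ᶜ.Nonempty := (compl p Y S₂ hS₂).1.nonempty
  obtain ⟨g, n, Q, ι, U, π, L, hA, hF1⟩ := a0 p d m X Y f S₂ w hd h.hol hS₂.1 hP₂ hpre hw hnon
  set a' : Fin q → Set X → ℤ := fun j D => (m.factorial : ℤ) * a j D with ha'
  have hUN : ∀ y ∉ S₂, ∀ (F : Type) [TopologicalSpace F] [T2Space F] [ChartedSpace (Cm d) F]
      (i : F → X), H511.Surf.IsFibre (Cm (p + d)) (Cm d) f y i → (∀ x, (i ⁻¹' {x}).encard ≤ m) →
      ∀ j (u : F → ℂ), IsUnitF (p + d) d i 𝒟 (a j) u → ∃ W : X → ℂ,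
        IsUnitAt (Cm (p + d)) f 𝒟 (fun D => (m.factorial : ℤ) * a j D) y W ∧
        ∃ c : ℂ, c ≠ 0 ∧ ∀ t, (∀ D ∈ 𝒟, i t ∉ D) → W (i t) = c * u t ^ m.factorial := by
    intro y hy F _ _ _ i hi hk j u hu
    exact fx1 p d m X Y F f S₂ 𝒟 (a j) i y u hd h.hol hS₂.1 hP₂ hprime hne hy hi hk hu
  have hXR : ∀ y ∉ S₂, (∀ k, y ∉ H₀ k) → XRank (Cm (p + d)) d f U L 𝒟 a' r y := by
    intro y hy hyH
    obtain ⟨F, tF, t2, cF, i, hi, hk, hg⟩ := hgr y hyH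
    exact fx2 p d n g q m r X Y F (KTame w) f S₂ Q ι U π L 𝒟 a i y hd h.hol hS₂.1 hP₂ hA
      (hF1 y hy) hprime hne hy hi hk (fun j u hu => hUN y hy F i hi hk j u hu) hg
  have hfreq : ∀ j, ∀ y ∉ S₂, ∃ᶠ y' in 𝓝 y, ∃ u, IsUnitAt (Cm (p + d)) f 𝒟 (a' j) y' u := by
    intro j y hy
    have h1 : H64.Gen.Cov p (⋃ k, H₀ k) := ⟨H₀, hH₀, subset_rfl⟩
    have h2 : ∃ᶠ y' in 𝓝 y, y' ∈ (⋃ k, H₀ k)ᶜ := mem_closure_iff_frequently.1 (h1.dense_compl y)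
    refine (h2.and_eventually (hS₂.1.isOpen_compl.mem_nhds hy)).mono ?_
    rintro y' ⟨h3, h4⟩
    obtain ⟨F, tF, t2, cF, i, hi, hk, u, -, -, hu, -⟩ := hgr y' fun k hk => h3 (mem_iUnion.2 ⟨k, hk⟩)
    obtain ⟨W, hW, -⟩ := hUN y' h4 F i hi hk j (u j) (hu j)
    exact ⟨W, hW⟩
  have hfam := fun j => famU p d X Y f S₂ w 𝒟 (a' j) hd hw.toIsHermitian h.hol hS₂.1 hP₂
    hprime hne (hfreq j)
  have hbd := fun j => bound p d X Y f S₂ w 𝒟 (a' j) hd h.hol hS₂.1 hP₂ hpre hw hprime hne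
  set S' : Set Y := {y | y ∈ S₂ ∨ ¬ XRank (Cm (p + d)) d f U L 𝒟 a' r y} with hS'
  have hsub : S₂ ⊆ S' := fun y hy => Or.inl hy
  have hcl : IsClosed S' := by
    rw [← isOpen_compl_iff, isOpen_iff_mem_nhds]
    intro y hy
    have h1 : y ∉ S₂ := fun h2 => hy (Or.inl h2)
    have h2 : XRank (Cm (p + d)) d f U L 𝒟 a' r y := by
      by_contra h3
      exact hy (Or.inr h3)
    filter_upwards [hS₂.1.isOpen_compl.mem_nhds h1, xo p d n g q r X Y (KTame w) f S₂ Q ι U π L 𝒟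
      a' hd h.hol hS₂.1 hP₂ hA hprime hne hfam y h1 h2] with y' h3 h4 h5
    rcases h5 with h5 | h5
    · exact h3 h5
    · exact h5 h4
  have hsmall : IsSmallSet (Cm p) S' := by
    obtain ⟨H₂, hH₂, hsub₂⟩ := hS₂.2
    obtain ⟨H, hH, hHs⟩ := two_seq hH₂ hH₀
    refine ⟨hcl, H, hH, fun y hy => hHs ?_⟩
    rcases hy with hy | hy
    · exact Or.inl (hsub₂ hy)
    · by_cases hyS : y ∈ S₂
      · exact Or.inl (hsub₂ hyS)
      · right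
        by_contra h1
        exact hy (hXR y hyS fun k hk => h1 (mem_iUnion.2 ⟨k, hk⟩))
  have hP' := hP S' (h12.trans hsub) hcl
  refine ⟨w, S', hw.toIsHermitian, hsmall, hP', fun e₀ y hy => ?_⟩
  exact hasFormsD_mono hsub (mix p d n g q r X Y (KTame w) f S₂ Q ι U π L 𝒟 a' e₀ Δ hd
    (kTame_mono w) h.hol hS₂.1 hP₂ hA hprime hne hΔ0 h𝒟Δ hfam hbd y (fun h3 => hy (Or.inl h3))
    (by
      by_contra h3
      exact hy (Or.inr h3)))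

end Vale.Agent.P281.H383.TG
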