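import Vale.Agent.P281.H383.TG.HasUD
import Vale.Agent.P281.H383.TG.UL
import Vale.Agent.P281.H383.UD.Core

/-!
# P281, project T-G (helper383): block G10 for T-UD, `HasFam` (port of `H383/UD/Core.lean`)
-/

open Set Filter Metric Vale.Agent.P281 Vale.Agent.P281.H713
open Vale.Agent.P272.K (Chart IsKahler IsHermitian)
open Vale.Agent.P281.MF Vale.Agent.P281.ISO
open Vale.Agent.P281.H713.TZ Vale.Agent.P281.H64
open Vale.Agent.P281.H64.Gen
open Vale.Agent.P281.H64.Thin (IsThinSet)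
open Vale.Agent.P281.H64.TU (Tame KTame RelFormT HasFormsT IsGen)
open Vale.Agent.P281.H603.TE (core)
open Vale.Agent.P281.H64.TD (Cub FibInStmt)
open Vale.Agent.P281.H303.UD
open scoped Topology ContDiff Manifold

set_option linter.all false

noncomputable section

namespace Vale.Agent.P281.H383.TG

open Vale.Agent.P281.H303.UF Vale.Agent.P281.H303.TD Vale.Agent.P281.H383.UD
open Vale.Agent.P281.H969.TG (HasFormsD HasFam)

/-- `f` has relative forms, whose rank `s` is at least the Kodaira dimension of the very general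
orbifold fibres. -/
def FamLe (p d : ℕ) {X Y : Type} [TopologicalSpace X] [ChartedSpace (Cm (p + d)) X]
    [IsManifold 𝓘(ℂ, Cm (p + d)) ω X] [TopologicalSpace Y] [ChartedSpace (Cm p) Y]
    [IsManifold 𝓘(ℂ, Cm p) ω Y] (f : X → Y) (Δ : Set X → ℝ) : Prop :=
  ∃ s : ℕ, HasFam p d s f Δ ∧
    ∃ H : ℕ → Set Y, (∀ k, IsThinSet (Cm p) (H k)) ∧ ∀ y, (∀ k, y ∉ H k) →
      ∀ (F : Type) [TopologicalSpace F] [T2Space F] [ChartedSpace (Cm d) F] (i : F → X),
        H511.Surf.IsFibre (Cm (p + d)) (Cm d) f y i →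
        TZ.S.kodR (Cm (p + d)) (Cm d) i Δ ≤ ((s : ℕ∞) : WithBot ℕ∞)

/-- the inequality, if the coverings number `m` of the fibres are immersed in tori -/
theorem mainD (orb : OrbMStmt) (orbD : OrbDStmt) (alg : AlgStmt) (has : HasUDDStmt)
    (kod : KodRUStmt) (compl : ComplStmt)
    {p d m r : ℕ} {X Y : Type} [TopologicalSpace X]
    [ChartedSpace (Cm (p + d)) X] [IsManifold 𝓘(ℂ, Cm (p + d)) ω X] [TopologicalSpace Y]
    [ChartedSpace (Cm p) Y] [IsManifold 𝓘(ℂ, Cm p) ω Y] {f : X → Y}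
    {Δ : Set X → ℝ} (hd : 0 < d) (h : H511.Surf.IsFibration (Cm (p + d)) (Cm p) f Δ)
    {w : Chart (p + d) X → Cm (p + d) → Matrix (Fin (p + d)) (Fin (p + d)) ℂ} (hw : IsKahler w)
    {S : Set Y} (hS : IsSmallSet (Cm p) S)
    (hP : ∀ S', S ⊆ S' → IsClosed S' → IsProperFibration (n := p + d) (p := p) f S')
    (hne : Sᶜ.Nonempty) (hN : ∀ y ∉ S, TK.TE.NDegE (p + d) p d m r f y)
    (hN' : ∀ y ∉ S, ¬ TK.TE.NDegE (p + d) p d m (r + 1) f y)
    (himm : ∀ y ∉ S, IsImmE (p + d) p d m f y)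
    (hin : ∀ D, Δ D ≠ 0 → ∀ y ∉ S, ¬ f ⁻¹' {y} ⊆ D) :
    FamLe p d f Δ := by
  classical
  have : T2Space X := h.hausdorff.1
  have : T2Space Y := h.hausdorff.2
  have : CompactSpace X := h.compact
  have : ConnectedSpace X := h.connected
  set 𝒜 : Set (Set X) := {D | Δ D ≠ 0} with h𝒜
  have hfin : 𝒜.Finite := h.snc.1
  have hprime : ∀ D ∈ 𝒜, J.IsPrime (Cm (p + d)) D := h.snc.2.1
  have hΔ0 : ∀ D, 0 ≤ Δ D := fun D => (snc01 (JB.snc h.snc) D).1
  have hsurj : Function.Surjective f := fun y => (h.fibres y).nonempty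
  have : PreconnectedSpace Y := by
    rw [preconnectedSpace_iff_univ, ← hsurj.range_eq]
    exact isPreconnected_range h.hol.continuous
  have hpre := (compl p Y S hS).2
  have hPS := hP S subset_rfl hS.1
  have hpreX : IsPreconnected (f ⁻¹' S)ᶜ := preconn_pre h.hol hS.1 hPS hpre
  obtain ⟨g, n, b, nb, Q, QB, ι, U, π, ϖ, j, ℓ, L, u, hO, hrb, hG⟩ :=
    orb p d m r X Y f S w hd h.hol hPS hpre hw hN hN' himm hne
  obtain ⟨Lw, hD⟩ := orbD p d n nb g b X Y (KTame w) f S Q QB ι U π ϖ j ℓ L u 𝒜 hd h.hol hS.1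
    hpreX hO hfin hprime
  have hU := alg d n nb (Cm (p + d)) (Cm p) X Y (EuclideanSpace ℂ (Fin g))
    (EuclideanSpace ℂ (Fin b)) (KTame w) f S Q QB ι U π ϖ j ℓ L u 𝒜 Lw h.hol hO hD
  obtain ⟨s, S', hsd, hSS, hS', hr, hr1⟩ := H364.UD.gen_rank_UD h.hol hS hpre hne hPS hU
    (fun a x β W hL hx ξ => by
      obtain ⟨w', h1, -⟩ := hL
      exact hO.imm a x β (hD.toL a x β w' h1) ξ)
    (fun a x β W hL hx l => by
      obtain ⟨w', h1, -⟩ := hL
      exact hO.full a x β (hD.toL a x β w' h1) l) hfin hprime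
  refine ⟨s, ⟨w, S', hw.toIsHermitian, hS', hP S' hSS hS'.1, fun e₀ y hy => ?_⟩, ?_⟩
  · exact hasFormsD_mono hSS (has d s n (Cm (p + d)) (Cm p) X Y
        (EuclideanSpace ℂ (Fin g)) (KTame w) f S Q ι U π 𝒜 _ e₀ Δ hd h.hol hU
        hfin hprime hΔ0 (fun D hD => lt_of_le_of_ne (hΔ0 D) (Ne.symm hD)) y
        (fun h3 => hy (hSS h3)) (hr y hy))
  obtain ⟨H, hH, hsub⟩ := hS'.2
  refine ⟨H, hH, fun y hy F _ _ _ i hi => ?_⟩
  have hyS' : y ∉ S' := by
    intro h2
    obtain ⟨k, hk⟩ := mem_iUnion.1 (hsub h2)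
    exact hy k hk
  have hyS : y ∉ S := fun h2 => hyS' (hSS h2)
  exact kod p d n nb g b r s X Y (KTame w) f Δ S Q QB ι U π ϖ j ℓ L u Lw y F i hd h.hol hPS h.snc hO
      hD hyS (fun D hD' => hin D hD' y hyS) hrb (hG y hyS) (hr1 y hyS) hi

/-- the inequality, if the coverings number `k` of the fibres are immersed in tori off a small set -/
theorem udD_core (orb : OrbMStmt) (orbD : OrbDStmt) (alg : AlgStmt) (has : HasUDDStmt)
    (kod : KodRUStmt) (deg : TK.TE.DegEStmt) (compl : ComplStmt) (fi : FibInStmt)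
    {p d k : ℕ} {X Y : Type} [TopologicalSpace X]
    [ChartedSpace (Cm (p + d)) X] [IsManifold 𝓘(ℂ, Cm (p + d)) ω X] [TopologicalSpace Y]
    [ChartedSpace (Cm p) Y] [IsManifold 𝓘(ℂ, Cm p) ω Y] {f : X → Y}
    {Δ : Set X → ℝ} (hd : 0 < d) (h : H511.Surf.IsFibration (Cm (p + d)) (Cm p) f Δ)
    {w : Chart (p + d) X → Cm (p + d) → Matrix (Fin (p + d)) (Fin (p + d)) ℂ} (hw : IsKahler w)
    {S₁ : Set Y}
    (hP : ∀ S', S₁ ⊆ S' → IsClosed S' → IsProperFibration (n := p + d) (p := p) f S')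
    (hS₂ : IsSmallSet (Cm p) (S₁ ∪ {y | ¬ IsImmE (p + d) p d k f y})) :
    FamLe p d f Δ := by
  classical
  have : T2Space X := h.hausdorff.1
  have : T2Space Y := h.hausdorff.2
  have : CompactSpace X := h.compact
  have : ConnectedSpace X := h.connected
  have hsurj : Function.Surjective f := fun y => (h.fibres y).nonempty
  have : PreconnectedSpace Y := by
    rw [preconnectedSpace_iff_univ, ← hsurj.range_eq]
    exact isPreconnected_range h.hol.continuous
  have : Nonempty Y := by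
    obtain ⟨x⟩ : Nonempty X := inferInstance
    exact ⟨f x⟩
  set S₂ : Set Y := S₁ ∪ {y | ¬ IsImmE (p + d) p d k f y} with hS₂d
  have h12 : S₁ ⊆ S₂ := subset_union_left
  have himm : ∀ y ∉ S₂, IsImmE (p + d) p d k f y := by
    intro y hy
    by_contra h1
    exact hy (Or.inr h1)
  -- the rank of the Gauss maps
  let P : ℕ → Prop := fun R => ∃ y ∉ S₂, TK.TE.NDegE (p + d) p d k R f y
  have hP0 : P 0 := by
    obtain ⟨y, hy⟩ := (compl p Y S₂ hS₂).1.nonempty
    exact ⟨y, hy, nDegE_of_imm (himm y hy)⟩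
  have hPd : ∀ R, P R → R ≤ d := by
    rintro R ⟨y, -, hy⟩
    exact ndegE_le hy
  have hR : P (Nat.findGreatest P d) := Nat.findGreatest_spec (Nat.zero_le d) hP0
  set R := Nat.findGreatest P d with hRdef
  have hN' : ∀ y ∉ S₂, ¬ TK.TE.NDegE (p + d) p d k (R + 1) f y := by
    intro y hy hy'
    have h3 : P (R + 1) := ⟨y, hy, hy'⟩
    have h4 := Nat.le_findGreatest (P := P) (hPd _ h3) h3
    omega
  obtain ⟨S₃, h23, hS₃, hN⟩ := deg p d k R X Y f S₂ w hd h.hol hsurj (hP S₂ h12 hS₂.1) hS₂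
    (compl p Y S₂ hS₂).2 hw hR
  obtain ⟨S₄, h34, hS₄, hin⟩ := fibIn_fin fi hd h.hol (S := S₃)
    (fun S' h7 h8 => hP S' ((h12.trans h23).trans h7) h8) hS₃ h.snc.1.toFinset
    (fun D hD => h.snc.2.1 D (h.snc.1.mem_toFinset.1 hD))
  have h24 := h23.trans h34
  exact mainD orb orbD alg has kod compl hd h hw hS₄
    (fun S' h7 h8 => hP S' ((h12.trans h24).trans h7) h8) (compl p Y S₄ hS₄).1.nonempty
    (fun y hy => hN y fun h5 => hy (h34 h5)) (fun y hy => hN' y fun h5 => hy (h24 h5))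
    (fun y hy => himm y fun h5 => hy (h24 h5))
    (fun D hD y hy => hin D (h.snc.1.mem_toFinset.2 hD) y hy)

/-- **T-UD** from the blocks -/
theorem udD (orb : OrbMStmt) (orbD : OrbDStmt) (alg : AlgStmt) (has : HasUDDStmt)
    (kod : KodRUStmt) (immO : ImmOpenStmt) (fibI : FibImmStmt) (deg : TK.TE.DegEStmt)
    (crit : CritStmt) (compl : ComplStmt) (fi : FibInStmt) {p d k : ℕ} {X Y : Type}
    [TopologicalSpace X] [ChartedSpace (Cm (p + d)) X] [IsManifold 𝓘(ℂ, Cm (p + d)) ω X]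
    [TopologicalSpace Y] [ChartedSpace (Cm p) Y] [IsManifold 𝓘(ℂ, Cm p) ω Y] {f : X → Y}
    {Δ : Set X → ℝ} (hd : 0 < d) (h : H511.Surf.IsFibration (Cm (p + d)) (Cm p) f Δ)
    {w : Chart (p + d) X → Cm (p + d) → Matrix (Fin (p + d)) (Fin (p + d)) ℂ} (hw : IsKahler w)
    (hgen : GenImm p d k f) : FamLe p d f Δ := by
  classical
  have : T2Space X := h.hausdorff.1
  have : T2Space Y := h.hausdorff.2
  have : CompactSpace X := h.compact
  have : ConnectedSpace X := h.connected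
  have hsurj : Function.Surjective f := fun y => (h.fibres y).nonempty
  have : PreconnectedSpace Y := by
    rw [preconnectedSpace_iff_univ, ← hsurj.range_eq]
    exact isPreconnected_range h.hol.continuous
  have : Nonempty Y := by
    obtain ⟨x⟩ : Nonempty X := inferInstance
    exact ⟨f x⟩
  obtain ⟨S₁, hS₁, hP⟩ := crit (p + d) p X Y f h.hol h.fibres
  have hP₁ := hP S₁ subset_rfl hS₁.1
  obtain ⟨H₀, hH₀, hg⟩ := hgen
  have himm₀ : ∀ y ∉ S₁, (∀ j, y ∉ H₀ j) → IsImmE (p + d) p d k f y := by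
    intro y hy hyH
    obtain ⟨F, _, _, _, i, hi, hk, hG⟩ := hg y hyH
    exact fibI p d k X Y f S₁ hd h.hol hP₁ y hy F i hi hk hG
  -- the coverings are immersed off a small set
  set S₂ : Set Y := S₁ ∪ {y | ¬ IsImmE (p + d) p d k f y} with hS₂d
  have h12 : S₁ ⊆ S₂ := subset_union_left
  have hc₂ : IsClosed S₂ := by
    rw [← isOpen_compl_iff, isOpen_iff_mem_nhds]
    intro y hy
    rw [hS₂d, mem_compl_iff, mem_union, not_or] at hy
    obtain ⟨hy1, hy2⟩ := hy
    have hy3 : IsImmE (p + d) p d k f y := not_not.1 hy2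
    filter_upwards [immO p d k X Y f S₁ w hd h.hol hP₁ (compl p Y S₁ hS₁).2 hw y hy1 hy3,
      hS₁.1.isOpen_compl.mem_nhds hy1] with y' h1 h2 h3
    rcases h3 with h3 | h3
    · exact h2 h3
    · exact h3 h1
  have hS₂ : IsSmallSet (Cm p) S₂ := by
    obtain ⟨H₁, hH₁, hsub⟩ := hS₁.2
    refine ⟨hc₂, fun j => if j % 2 = 0 then H₁ (j / 2) else H₀ (j / 2), fun j => ?_, ?_⟩
    · dsimp only
      split_ifs
      · exact hH₁ _
      · exact hH₀ _
    · intro y hy
      have h1 : y ∈ S₁ → y ∈ ⋃ j, (if j % 2 = 0 then H₁ (j / 2) else H₀ (j / 2)) := by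
        intro h2
        obtain ⟨j, hj⟩ := mem_iUnion.1 (hsub h2)
        refine mem_iUnion.2 ⟨2 * j, ?_⟩
        have h5 : (2 * j) / 2 = j := by omega
        have h6 : (2 * j) % 2 = 0 := by omega
        rw [h5, h6, if_pos rfl]
        exact hj
      rcases hy with hy | hy
      · exact h1 hy
      · by_cases h2 : y ∈ S₁
        · exact h1 h2
        · have h3 : ∃ j, y ∈ H₀ j := by
            by_contra h4
            push Not at h4
            exact hy (himm₀ y h2 h4)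
          obtain ⟨j, hj⟩ := h3
          refine mem_iUnion.2 ⟨2 * j + 1, ?_⟩
          have h5 : (2 * j + 1) / 2 = j := by omega
          have h6 : (2 * j + 1) % 2 = 1 := by omega
          rw [h5, h6, if_neg one_ne_zero]
          exact hj
  exact udD_core orb orbD alg has kod deg compl fi hd h hw hP hS₂

end Vale.Agent.P281.H383.TG
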