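import Vale.Agent.P281.H383.TG.UDFin
import Vale.Agent.P281.H303.UD.Fin

/-!
# P281, project T-G (helper383): block G10 for T-UD, coverings of any degree
-/

open Set Filter Metric Vale.Agent.P281 Vale.Agent.P281.H713
open Vale.Agent.P272.K (Chart IsKahler IsHermitian)
open Vale.Agent.P281.H713.TZ Vale.Agent.P281.H64
open Vale.Agent.P281.H64.Thin (IsThinSet)
open Vale.Agent.P281.H64.TU (IsGen)
open scoped Topology ContDiff Manifold

noncomputable section

namespace Vale.Agent.P281.H383.TG

open Vale.Agent.P281.H303.UF Vale.Agent.P281.H303.UD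

/-- **`HasFam` for the fibrations such that some very general fibre (off countably many thin closed
sets) has a finite étale covering `F`, of any degree, immersed in a torus** (`Δ` arbitrary), with the
rank at least the Kodaira dimension of the very general orbifold fibres. -/
theorem famUD {p d : ℕ} {X Y : Type}
    [TopologicalSpace X] [ChartedSpace (Cm (p + d)) X] [IsManifold 𝓘(ℂ, Cm (p + d)) ω X]
    [TopologicalSpace Y] [ChartedSpace (Cm p) Y] [IsManifold 𝓘(ℂ, Cm p) ω Y] {f : X → Y}
    {Δ : Set X → ℝ} (hd : 0 < d) (h : H511.Surf.IsFibration (Cm (p + d)) (Cm p) f Δ)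
    (hw : ∃ w : Chart (p + d) X → Cm (p + d) → Matrix (Fin (p + d)) (Fin (p + d)) ℂ, IsKahler w) :
    ∃ H : ℕ → Set Y, (∀ k, IsThinSet (Cm p) (H k)) ∧ ∀ y, (∀ k, y ∉ H k) →
      ∀ (F : Type) [TopologicalSpace F] [T2Space F] [ChartedSpace (Cm d) F] (i : F → X),
        H511.Surf.IsFibre (Cm (p + d)) (Cm d) f y i → IsGen d F → FamLe p d f Δ := by
  classical
  obtain ⟨w, hw⟩ := hw
  have : T2Space X := h.hausdorff.1
  have : T2Space Y := h.hausdorff.2
  have : CompactSpace X := h.compact
  have : ConnectedSpace X := h.connected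
  have hsurj : Function.Surjective f := fun y => (h.fibres y).nonempty
  have : PreconnectedSpace Y := by
    rw [preconnectedSpace_iff_univ, ← hsurj.range_eq]
    exact isPreconnected_range h.hol.continuous
  have : CompactSpace Y := hsurj.compactSpace h.hol.continuous
  obtain ⟨S₁, hS₁, hP⟩ := H303.UF.crit (p + d) p X Y f h.hol h.fibres
  have hP₁ := hP S₁ subset_rfl hS₁.1
  obtain ⟨H, hH, hsub⟩ := hS₁.2
  refine ⟨H, hH, fun y hy F _ _ _ i hi hg => ?_⟩
  have hyS : y ∉ S₁ := by
    intro hc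
    obtain ⟨j, hj⟩ := mem_iUnion.1 (hsub hc)
    exact hy j hj
  have := hi.compact
  have := hi.manifold
  obtain ⟨k, hk⟩ := exists_sheets (i := i) (fun x => by
    obtain ⟨R, -, hRi⟩ := H349.UK.exists_retr (hi.hol x) (hi.immersion x)
    refine ⟨_, hRi, ?_⟩
    intro x₁ hx₁ x₂ hx₂ he
    have a1 : R (i x₁) = x₁ := hx₁
    have a2 : R (i x₂) = x₂ := hx₂
    rw [← a1, ← a2, he])
  have h₁ := H83.fibImm_of H152.K.ab p d k X Y f S₁ hd h.hol hP₁ y hyS F i hi hk hg
  exact udD_core (H303.UD.orbM TK.inputs H485.U.tameBound (H485.U.norm1 H864.K.e1)) H383.UL.orbD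
    H511.UD.algStmt hasUDD H349.UK.kodRU (H969.E.degE_of_inputs TK.inputs)
    H383.Gen.compl H364.TD.fibIn hd h hw hP
    (immDich TK.inputs hd h.hol hw hP₁ hS₁ hyS h₁)

end Vale.Agent.P281.H383.TG
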