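import Vale.Agent.P281.H383.TG.UD
import Vale.Agent.P281.H383.UD.Fin

/-!
# P281, project T-G (helper383): block G10 for T-UD, plugged
-/

open Set Filter Metric Vale.Agent.P281 Vale.Agent.P281.H713
open Vale.Agent.P272.K (Chart IsKahler IsHermitian)
open Vale.Agent.P281.H713.TZ Vale.Agent.P281.H64
open Vale.Agent.P281.H64.Thin (IsThinSet)
open scoped Topology ContDiff Manifold

noncomputable section

namespace Vale.Agent.P281.H383.TG

open Vale.Agent.P281.H303.UF Vale.Agent.P281.H303.UD

/-- **`HasFam` for the class of T-UD** (the hypotheses of `TUDStmt`: finite étale coverings of the very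
general fibres are immersed in tori, `Δ` arbitrary), with the rank at least the Kodaira dimension
of the very general orbifold fibres. -/
theorem hasFamUD {p d k : ℕ} {X Y : Type}
    [TopologicalSpace X] [ChartedSpace (Cm (p + d)) X] [IsManifold 𝓘(ℂ, Cm (p + d)) ω X]
    [TopologicalSpace Y] [ChartedSpace (Cm p) Y] [IsManifold 𝓘(ℂ, Cm p) ω Y] {f : X → Y}
    {Δ : Set X → ℝ} (hd : 0 < d) (h : H511.Surf.IsFibration (Cm (p + d)) (Cm p) f Δ)
    {w : Chart (p + d) X → Cm (p + d) → Matrix (Fin (p + d)) (Fin (p + d)) ℂ} (hw : IsKahler w)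
    (hgen : GenImm p d k f) : FamLe p d f Δ :=
  udD (H303.UD.orbM TK.inputs H485.U.tameBound (H485.U.norm1 H864.K.e1)) H383.UL.orbD
    H511.UD.algStmt hasUDD H349.UK.kodRU (H83.immOpen_of TK.inputs)
    (H83.fibImm_of H152.K.ab) (H969.E.degE_of_inputs TK.inputs) crit H383.Gen.compl
    H364.TD.fibIn hd h hw hgen

end Vale.Agent.P281.H383.TG
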