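import Vale.Agent.P281.H383.TG.UL
import Vale.Agent.P281.H383.ULF.Fin

/-!
# P281, project T-G (helper383): block G10 for T-UL and T-U, plugged
-/

open Set Filter Metric Vale.Agent.P281 Vale.Agent.P281.H713
open Vale.Agent.P272.K (Chart IsKahler IsHermitian Cm)
open Vale.Agent.P281.H64.Thin (IsThinSet)
open Vale.Agent.P281.H511.UL (XGaussRank)
open scoped Topology ContDiff Manifold

noncomputable section

namespace Vale.Agent.P281.H383.TG

theorem mixD : MixDStmt := mixD_of H615.UL.mixRank (hasULD_of H495.UL.logExt)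

/-- **`HasFam` for the class of T-UL** (the hypotheses of `TULStmt`; `q = 0`, `𝒟 = ∅`: coverings of
the very general fibres with a Gauss map of rank `r`, T-U and T-E) -/
theorem hasFamUL {p d q m r : ℕ} {X Y : Type} [TopologicalSpace X]
    [ChartedSpace (Cm (p + d)) X] [IsManifold 𝓘(ℂ, Cm (p + d)) ω X] [TopologicalSpace Y]
    [ChartedSpace (Cm p) Y] [IsManifold 𝓘(ℂ, Cm p) ω Y] {f : X → Y}
    {Δ : Set X → ℝ} {a : Fin q → Set X → ℤ} (hd : 0 < d)
    (h : H511.Surf.IsFibration (Cm (p + d)) (Cm p) f Δ)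
    {w : Chart (p + d) X → Cm (p + d) → Matrix (Fin (p + d)) (Fin (p + d)) ℂ} (hw : IsKahler w)
    {𝒟 : Finset (Set X)} (h𝒟Δ : ∀ D ∈ 𝒟, Δ D = 1) {H₀ : ℕ → Set Y}
    (hH₀ : ∀ k, IsThinSet (Cm p) (H₀ k)) (hgr : ∀ y, (∀ k, y ∉ H₀ k) →
      ∃ (F : Type) (_ : TopologicalSpace F) (_ : T2Space F) (_ : ChartedSpace (Cm d) F)
        (i : F → X), H511.Surf.IsFibre (Cm (p + d)) (Cm d) f y i ∧
        (∀ x, (i ⁻¹' {x}).encard ≤ m) ∧ XGaussRank (p + d) d i 𝒟 a r) :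
    H969.TG.HasFam p d r f Δ :=
  hasFam_ul H969.TL.crit H383.Gen.compl H364.TD.fibIn H969.TL.famU
    H969.TL.bound (H349.UL.alb0_of H64.TK.inputs H485.U.tameBound (H485.U.norm1 H864.K.e1))
    mixD H615.UL.xOpen H225.UL.unitNorm H349.UL.fibX hd h hw h𝒟Δ hH₀ hgr

end Vale.Agent.P281.H383.TG
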